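/-
R335/PO/Main: block PO (see R335/Notes)
Skeleton by helper48 (row 335); proof by helper15.
-/
import Crest.Agent.R335.RT.Main
import Crest.Agent.R335.Assemble

set_option autoImplicit false
set_option linter.unusedSectionVars false
set_option linter.unusedVariables false
set_option linter.unusedSimpArgs false

noncomputable section

namespace Crest.Agent.R335

open MeasureTheory Set Filter Topology Metric
open scoped ENNReal

/-- The regularised denominator. -/
def poM (ε s t : ℝ) : ℝ := √(t ^ 2 + ε ^ 2 + ε ^ 2 * s ^ 2)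

theorem po_pos {ε : ℝ} (hε : 0 < ε) (s t : ℝ) : 0 < poM ε s t := Real.sqrt_pos.2 (by positivity)

theorem po_sq (ε s t : ℝ) : poM ε s t ^ 2 = t ^ 2 + ε ^ 2 + ε ^ 2 * s ^ 2 :=
  Real.sq_sqrt (by positivity)

theorem po_ge {ε : ℝ} (hε : 0 < ε) (s t : ℝ) :
    ε ≤ poM ε s t ∧ |t| ≤ poM ε s t ∧ ε * |s| ≤ poM ε s t := by
  refine ⟨Real.le_sqrt_of_sq_le ?_, Real.le_sqrt_of_sq_le ?_, Real.le_sqrt_of_sq_le ?_⟩
  · nlinarith [sq_nonneg t, sq_nonneg (ε * s)]
  · rw [sq_abs]; nlinarith [sq_nonneg ε, sq_nonneg (ε * s)]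
  · rw [mul_pow, sq_abs]; nlinarith [sq_nonneg ε, sq_nonneg t]

theorem po_d1 {ε : ℝ} (hε : 0 < ε) (s t : ℝ) :
    HasDerivAt (fun s => s / poM ε s t) ((t ^ 2 + ε ^ 2) / poM ε s t ^ 3) s := by
  have h0 := po_pos hε s t
  have h1 : HasDerivAt (fun s => poM ε s t) (ε ^ 2 * (2 * s) / (2 * poM ε s t)) s := by
    have := (((hasDerivAt_pow 2 s).const_mul (ε ^ 2)).const_add (t ^ 2 + ε ^ 2)).sqrt (by positivity)
    simpa [poM] using this
  refine ((hasDerivAt_id s).div h1 h0.ne').congr_deriv ?_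
  have h2 := po_sq ε s t
  simp only [id]
  field_simp
  linarith

theorem po_d2 {ε : ℝ} (hε : 0 < ε) (s t : ℝ) :
    HasDerivAt (fun t => s / poM ε s t) (-(s * t) / poM ε s t ^ 3) t := by
  have h0 := po_pos hε s t
  have h1 : HasDerivAt (fun t => poM ε s t) (2 * t / (2 * poM ε s t)) t := by
    have := (((hasDerivAt_pow 2 t).add_const (ε ^ 2)).add_const (ε ^ 2 * s ^ 2)).sqrt (by positivity)
    simpa [poM] using this
  refine ((hasDerivAt_const t s).div h1 h0.ne').congr_deriv ?_
  field_simp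
  ring

theorem po_bd {ε : ℝ} (hε : 0 < ε) (hε1 : ε ≤ 1) (s t : ℝ) :
    |(t ^ 2 + ε ^ 2) / poM ε s t ^ 3| ≤ 1 / ε ^ 2 ∧ |-(s * t) / poM ε s t ^ 3| ≤ 1 / ε ^ 2 := by
  have h0 := po_pos hε s t
  have h2 := po_sq ε s t
  obtain ⟨a1, a2, a3⟩ := po_ge hε s t
  generalize poM ε s t = m at *
  constructor
  · rw [abs_of_nonneg (by positivity), div_le_div_iff₀ (by positivity) (by positivity)]
    have h3 : t ^ 2 + ε ^ 2 ≤ m ^ 2 := by nlinarith [sq_nonneg (ε * s)]
    have h4 : ε ^ 2 ≤ m := by nlinarith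
    nlinarith [mul_le_mul h3 h4 (by positivity) (by positivity)]
  · rw [abs_div, abs_neg, abs_mul, abs_of_pos (pow_pos h0 3),
      div_le_div_iff₀ (by positivity) (by positivity)]
    have h3 := mul_le_mul (mul_le_mul a3 a2 (abs_nonneg _) h0.le) a1 hε.le (by positivity)
    nlinarith

theorem po_lim (s : ℝ) {t : ℝ} (ht : 0 < t) :
    Tendsto (fun n : ℕ => poM (1 / (n + 1)) s t) atTop (𝓝 t) := by
  have h1 := ((pos_eps.pow 2).const_add (t ^ 2)).add ((pos_eps.pow 2).mul_const (s ^ 2))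
  have h2 := h1.sqrt
  simp only [ne_eq, OfNat.ofNat_ne_zero, not_false_eq_true, zero_pow, add_zero, zero_mul,
    Real.sqrt_sq ht.le] at h2
  exact h2

/-- Approximation of `f / P` by bounded `H¹` functions. -/
theorem po_approx {P f : X → ℝ} (hP : H1 eX P) (hp : ∀ᵐ x : X, 0 < P x) (hf : H1 eX f)
    (hD : Integrable (Dsq P f)) :
    (∀ n : ℕ, H1 eX (fun x => f x / poM (1 / (n + 1)) (f x) (P x)) ∧
      ∃ k : ℝ, ∀ᵐ x : X, |f x / poM (1 / (n + 1)) (f x) (P x)| ≤ k) ∧
    Tendsto (fun n : ℕ => ∫ x, P x ^ 2 * (f x / poM (1 / (n + 1)) (f x) (P x)) ^ 2) atTop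
      (𝓝 (ip f f)) ∧
    Tendsto (fun n : ℕ => ∫ x, P x ^ 2 * (f x / poM (1 / (n + 1)) (f x) (P x))) atTop
      (𝓝 (ip P f)) ∧
    Tendsto (fun n : ℕ => ∫ x, P x ^ 2 * dot eX (fun x => f x / poM (1 / (n + 1)) (f x) (P x))
      (fun x => f x / poM (1 / (n + 1)) (f x) (P x)) x) atTop (𝓝 (∫ x, Dsq P f x)) := by
  have hc : ∀ n : ℕ, ContDiff ℝ 1 fun p : ℝ × ℝ => p.1 / poM (1 / (n + 1)) p.1 p.2 := fun n =>
    contDiff_fst.div (ContDiff.sqrt (by fun_prop) fun p => by positivity)
      fun p => (po_pos (pos_eps_pos n) _ _).ne'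
  have key := fun n : ℕ => hf.hl.chain2 hP.hl (Φ := fun s t => s / poM (1 / (n + 1)) s t) (hc n)
    (po_d1 (pos_eps_pos n)) (po_d2 (pos_eps_pos n)) (po_bd (pos_eps_pos n) (pos_eps_le n))
  have hm : ∀ n : ℕ, AEStronglyMeasurable (fun x => poM (1 / (n + 1)) (f x) (P x)) volume := fun n => by
    have := hf.1.1.aemeasurable
    have := hP.1.1.aemeasurable
    unfold poM
    exact AEMeasurable.aestronglyMeasurable (by fun_prop)
  have hle : ∀ (n : ℕ) x, |P x * (f x / poM (1 / (n + 1)) (f x) (P x))| ≤ |f x| := fun n x => by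
    have h0 := po_pos (pos_eps_pos n) (f x) (P x)
    rw [abs_mul, abs_div, abs_of_pos h0, mul_comm, div_mul_eq_mul_div, div_le_iff₀ h0]
    exact mul_le_mul_of_nonneg_left (po_ge (pos_eps_pos n) _ _).2.1 (abs_nonneg _)
  have hlim : ∀ᵐ x : X, Tendsto (fun n : ℕ => P x * (f x / poM (1 / (n + 1)) (f x) (P x))) atTop
      (𝓝 (f x)) := hp.mono fun x hx => by
    have := (tendsto_const_nhds (x := f x).div (po_lim (f x) hx) hx.ne').const_mul (P x)
    rwa [mul_div_cancel₀ _ hx.ne'] at this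
  refine ⟨fun n => ⟨⟨hf.1.of_le_mul (c := n + 1) (key n).1.1.aesm (.of_forall fun x => ?_),
    fun i => ⟨((key n).1.2 i).1, MemLp.ae_eq ((key n).2 i).symm (MemLp.add
      (apx_memLp_mul (hf.2 i).2 ?_ (.of_forall fun x => (po_bd (pos_eps_pos n) (pos_eps_le n) _ _).1))
      (apx_memLp_mul (hP.2 i).2 ?_
        (.of_forall fun x => (po_bd (pos_eps_pos n) (pos_eps_le n) _ _).2)))⟩⟩,
    n + 1, .of_forall fun x => ?_⟩, ?_, ?_, ?_⟩
  · have h0 := po_pos (pos_eps_pos n) (f x) (P x)
    have h1 := (po_ge (pos_eps_pos n) (f x) (P x)).1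
    rw [norm_div, Real.norm_of_nonneg h0.le, div_le_iff₀ h0, mul_right_comm]
    rw [div_le_iff₀' (by positivity)] at h1
    exact le_mul_of_one_le_left (norm_nonneg _) h1
  · exact (((hP.1.1.pow 2).add aestronglyMeasurable_const).aemeasurable.div
      ((hm n).pow 3).aemeasurable).aestronglyMeasurable
  · exact ((hf.1.1.mul hP.1.1).neg.aemeasurable.div ((hm n).pow 3).aemeasurable).aestronglyMeasurable
  · have h0 := po_pos (pos_eps_pos n) (f x) (P x)
    have h1 := (po_ge (pos_eps_pos n) (f x) (P x)).2.2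
    rw [abs_div, abs_of_pos h0, div_le_iff₀ h0]
    rwa [one_div_mul_eq_div, div_le_iff₀' (by positivity)] at h1
  · simp only [← mul_pow, ip, ← pow_two]
    refine tendsto_integral_of_dominated_convergence _
      (fun n => (hP.1.1.mul (key n).1.1.aesm).pow 2) hf.1.integrable_sq
      (fun n => .of_forall fun x => ?_) (hlim.mono fun x hx => hx.pow 2)
    rw [Real.norm_of_nonneg (sq_nonneg _)]
    exact sq_le_sq.2 (hle n x)
  · simp only [pow_two, mul_assoc]
    refine tendsto_integral_of_dominated_convergence (fun x => |P x * f x|)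
      (fun n => hP.1.1.mul (hP.1.1.mul (key n).1.1.aesm)) (hP.1.integrable_mul hf.1).abs
      (fun n => .of_forall fun x => ?_) (hlim.mono fun x hx => hx.const_mul _)
    rw [norm_mul, abs_mul]
    exact mul_le_mul_of_nonneg_left (hle n x) (abs_nonneg _)
  · have e : ∀ n : ℕ, ∀ᵐ x : X, P x ^ 2 * dot eX (fun x => f x / poM (1 / (n + 1)) (f x) (P x))
        (fun x => f x / poM (1 / (n + 1)) (f x) (P x)) x =
        ∑ i, ((P x / poM (1 / (n + 1)) (f x) (P x)) ^ 3 *
          (wd (eX i) f x - f x / P x * wd (eX i) P x) +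
          P x * (1 / (n + 1)) ^ 2 / poM (1 / (n + 1)) (f x) (P x) ^ 3 * wd (eX i) f x) ^ 2 := fun n => by
      filter_upwards [ae_all_iff.2 (key n).2, hp] with x h1 h2
      have h0 := po_pos (pos_eps_pos n) (f x) (P x)
      simp only [dot, h1, Finset.mul_sum]
      refine Finset.sum_congr rfl fun i _ => ?_
      generalize (1 / (n + 1) : ℝ) = ε at h0 ⊢
      field_simp
      ring
    refine tendsto_integral_of_dominated_convergence
      (fun x => 2 * Dsq P f x + 2 * dot eX f f x)
      (fun n => (hP.1.1.pow 2).mul (measurable_dot _ _).aestronglyMeasurable)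
      ((hD.const_mul 2).add ((hf.integrable_dot hf).const_mul 2)) (fun n => ?_) ?_
    · filter_upwards [e n, hp] with x h1 h2
      have h0 := po_pos (pos_eps_pos n) (f x) (P x)
      obtain ⟨a1, a2, -⟩ := po_ge (pos_eps_pos n) (f x) (P x)
      have a0 := pos_eps_pos n
      rw [h1, Real.norm_of_nonneg (Finset.sum_nonneg fun i _ => sq_nonneg _)]
      simp only [Dsq, dot, Finset.mul_sum, ← Finset.sum_add_distrib]
      refine Finset.sum_le_sum fun i _ => ?_
      rw [abs_of_pos h2] at a2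
      generalize (1 / (n + 1) : ℝ) = ε at *
      generalize poM ε (f x) (P x) = m at *
      have b1 : ((P x / m) ^ 3) ^ 2 ≤ 1 :=
        pow_le_one₀ (by positivity) (pow_le_one₀ (by positivity) ((div_le_one h0).2 a2))
      have b2 : (P x * ε ^ 2 / m ^ 3) ^ 2 ≤ 1 := by
        refine pow_le_one₀ (by positivity) ((div_le_one (by positivity)).2 ?_)
        nlinarith [mul_le_mul a2 (pow_le_pow_left₀ a0.le a1 2) (by positivity) h0.le]
      generalize (P x / m) ^ 3 = α at *
      generalize P x * ε ^ 2 / m ^ 3 = β at *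
      generalize wd (eX i) f x - f x / P x * wd (eX i) P x = d
      generalize wd (eX i) f x = g
      nlinarith [sq_nonneg (α * d - β * g), mul_le_mul_of_nonneg_right b1 (sq_nonneg d),
        mul_le_mul_of_nonneg_right b2 (sq_nonneg g)]
    · filter_upwards [ae_all_iff.2 e, hp] with x h1 h2
      simp only [h1]
      refine tendsto_finsetSum _ fun i _ => Tendsto.pow ?_ 2
      have l1 := ((tendsto_const_nhds (x := P x)).div (po_lim (f x) h2) h2.ne').pow 3
      have l2 := ((pos_eps.pow 2).const_mul (P x)).div ((po_lim (f x) h2).pow 3) (by positivity)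
      have l3 := (l1.mul_const (wd (eX i) f x - f x / P x * wd (eX i) P x)).add
        (l2.mul_const (wd (eX i) f x))
      simpa [div_self h2.ne'] using l3

theorem po_rf {P f : X → ℝ} (hP : H1 eX P) (he : ∀ x, P (rf x) = P x) (hf : H1 eX f) :
    ∀ᵐ x : X, Dsq P (fun x => f (rf x)) x = Dsq P f (rf x) := by
  have h1 := fun i => wd_rf hP.hl i
  simp only [he] at h1
  filter_upwards [ae_all_iff.2 h1, ae_all_iff.2 fun i => wd_rf hf.hl i] with x a1 a2
  simp only [Dsq, he]
  refine Finset.sum_congr rfl fun i _ => ?_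
  rw [a2 i, a1 i]
  split_ifs <;> ring

theorem stPoinc : StPoinc := by
  intro δ c P b R M h hδ hc hM ho he
  refine ⟨ho.pos, ho.intJ, ho.Jle, fun f hf hD => ?_⟩
  have hf' := sym_rf.h1 hf
  have h1 := (hf.add hf').const_mul (1 / 2)
  have h2 := (hf.sub hf').const_mul (1 / 2)
  have hD' : Integrable fun x => Dsq P f (rf x) := sym_rf.integrable.2 hD
  have hs : ∀ᵐ x : X, Dsq P (fun x => 1 / 2 * (f x + f (rf x))) x +
      Dsq P (fun x => 1 / 2 * (f x - f (rf x))) x = 1 / 2 * (Dsq P f x + Dsq P f (rf x)) := by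
    filter_upwards [po_rf h.hP h.P_even hf,
      ae_all_iff.2 fun i => (hf.add hf').hl.wd_const_mul (1 / 2) i,
      ae_all_iff.2 fun i => (hf.sub hf').hl.wd_const_mul (1 / 2) i,
      ae_all_iff.2 fun i => hf.hl.wd_add hf'.hl i, ae_all_iff.2 fun i => hf.hl.wd_sub hf'.hl i]
      with x a1 a2 a3 a4 a5
    rw [← a1]
    simp only [Dsq, a2, a3, a4, a5, Finset.mul_sum, ← Finset.sum_add_distrib]
    exact Finset.sum_congr rfl fun i _ => by ring
  have hnn : ∀ g x, 0 ≤ Dsq P g x := fun g x => Finset.sum_nonneg fun i _ => sq_nonneg _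
  have hms : ∀ g, H1 eX g → AEStronglyMeasurable (Dsq P g) volume := fun g hg => by
    have := hg.1.1.aemeasurable
    have := h.mP
    have := fun i => measurable_wd (eX i) g
    have := fun i => measurable_wd (eX i) P
    unfold Dsq
    exact AEMeasurable.aestronglyMeasurable (by fun_prop)
  have hI : Integrable fun x => 1 / 2 * (Dsq P f x + Dsq P f (rf x)) := (hD.add hD').const_mul _
  have i1 : Integrable (Dsq P fun x => 1 / 2 * (f x + f (rf x))) :=
    hI.mono' (hms _ h1) (hs.mono fun x hx => by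
      rw [Real.norm_of_nonneg (hnn _ _), ← hx]
      exact le_add_of_nonneg_right (hnn _ _))
  have i2 : Integrable (Dsq P fun x => 1 / 2 * (f x - f (rf x))) :=
    hI.mono' (hms _ h2) (hs.mono fun x hx => by
      rw [Real.norm_of_nonneg (hnn _ _), ← hx]
      exact le_add_of_nonneg_left (hnn _ _))
  have e1 := integral_congr_ae hs
  rw [integral_add i1 i2, integral_const_mul, integral_add hD hD', sym_rf.integral (Dsq P f)] at e1
  have e2 : ip (fun x => 1 / 2 * (f x + f (rf x))) (fun x => 1 / 2 * (f x + f (rf x))) +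
      ip (fun x => 1 / 2 * (f x - f (rf x))) (fun x => 1 / 2 * (f x - f (rf x))) = ip f f := by
    have j1 : Integrable fun x => f x * f x := hf.1.integrable_mul hf.1
    have j2 : Integrable fun x => f (rf x) * f (rf x) := hf'.1.integrable_mul hf'.1
    have j3 : ∫ x, 1 / 2 * (f x * f x + f (rf x) * f (rf x)) = ip f f := by
      rw [integral_const_mul, integral_add j1 j2, sym_rf.integral fun x => f x * f x, ip]
      ring
    rw [← j3]
    refine (integral_add (h1.1.integrable_mul h1.1) (h2.1.integrable_mul h2.1)).symm.trans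
      (integral_congr_ae (.of_forall fun x => ?_))
    simp only [Pi.mul_apply]
    ring
  have e3 : (ip P fun x => 1 / 2 * (f x + f (rf x))) = ip P f := by
    have j1 : Integrable fun x => P x * f x := h.hP.1.integrable_mul hf.1
    have j2 : Integrable fun x => P (rf x) * f (rf x) := sym_rf.integrable.2 j1
    have j3 : ∫ x, 1 / 2 * (P x * f x + P (rf x) * f (rf x)) = ip P f := by
      rw [integral_const_mul, integral_add j1 j2, sym_rf.integral fun x => P x * f x, ip]
      ring
    rw [← j3]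
    refine integral_congr_ae (.of_forall fun x => ?_)
    simp only [h.P_even]
    ring
  obtain ⟨a1, a2, a3, a4⟩ := po_approx h.hP ho.pos h1 i1
  obtain ⟨b1, b2, -, b4⟩ := po_approx h.hP ho.pos h2 i2
  have l1 := le_of_tendsto_of_tendsto' (a2.sub ((a3.pow 2).div_const 2)) (a4.const_mul c) fun n =>
    he _ (a1 n).1 (a1 n).2 (.of_forall fun x => by simp only [rf_rf, h.P_even, add_comm])
  have l2 := le_of_tendsto_of_tendsto' (b2.const_mul (2 * δ)) b4 fun n =>
    ho.odd _ (b1 n).1 (b1 n).2 (.of_forall fun x => by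
      have : 1 / 2 * (f (rf x) - f x) = -(1 / 2 * (f x - f (rf x))) := by ring
      simp only [rf_rf, h.P_even, this, poM, neg_sq, neg_div])
  rw [e3] at l1
  have l3 := mul_le_mul_of_nonneg_left l1 hδ
  have l4 := mul_le_mul_of_nonneg_right hc
    (integral_nonneg (μ := volume) (hnn fun x => 1 / 2 * (f x + f (rf x))))
  rw [← e2]
  nlinarith

end Crest.Agent.R335
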